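import Crest.Agent.R290.GMain1
import Crest.Agent.R290.GMain2

/-!
# Row 290 module G: the three languages are in EXPTIME

`Crest.Agent.R290G.varDim_inEXP`, `subcubicVarDim_inEXP`, `wlDimLe_inEXP`.
-/
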